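import Vale.Agent.Lib.P002.G1Defs

/-!
P002, one-holed torus, second wave, leaf J: normal form of a pair of matrices of determinant one
whose commutator is upper triangular and for which `B * A * w` is upper triangular, `w` the
reversal matrix.
-/

namespace Vale.Agent.Lib.P002.H40

open Matrix
open Vale.Agent.Lib.P002

theorem g1_chart_normal {n : ℕ} (δ : Fin n → ℂ) (A B : Matrix (Fin n) (Fin n) ℂ)
    (hA : A.det = 1) (hB : B.det = 1)
    (hK : ∀ i j, j < i → cmm A B i j = 0) (hKd : ∀ i, cmm A B i i = δ i)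
    (hc : ∀ i j, j < i → (B * A * revM ℂ n) i j = 0)
    (htr : trailDet n (B * revM ℂ n) ≠ 0) :
    ∃ U Lo l b : Matrix (Fin n) (Fin n) ℂ,
      (∀ i j, j < i → U i j = 0) ∧ (∀ i, U i i ≠ 0) ∧ (∀ i j, i < j → Lo i j = 0) ∧
      (∀ i, Lo i i ≠ 0) ∧ (∀ i j, i < j → l i j = 0) ∧ (∀ i, l i i = 1) ∧
      (∀ i j, j < i → b i j = 0) ∧
      (∀ i, b i i = δ i * U i i * Lo (Fin.rev i) (Fin.rev i)) ∧
      U * Lo = l * b ∧ U * Lo = B * revM ℂ n ∧ Lo.det = 1 ∧ U.det = (revM ℂ n).det ∧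
      A = revM ℂ n * Lo.adjugate * revM ℂ n * l.adjugate ∧ B = U * Lo * revM ℂ n := by
  -- the reversal matrix, made opaque
  have ww0 : revM ℂ n * revM ℂ n = 1 := revM_mul_revM n
  have dww0 : (revM ℂ n).det * (revM ℂ n).det = 1 := det_revM_mul_self n
  have hconj0 : ∀ (Y : Matrix (Fin n) (Fin n) ℂ) (i j : Fin n),
      (revM ℂ n * Y * revM ℂ n) i j = Y (Fin.rev i) (Fin.rev j) := fun Y i j => revM_conj Y i j
  generalize revM ℂ n = w at ww0 dww0 hconj0 hc htr ⊢
  have dw0 : w.det ≠ 0 := left_ne_zero_of_mul_eq_one dww0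
  have ww_l : ∀ Y : Matrix (Fin n) (Fin n) ℂ, w * (w * Y) = Y := fun Y => by
    rw [← mul_assoc, ww0, one_mul]
  -- the commutator, made opaque
  have hKBA : cmm A B * (B * A) = A * B := by
    unfold cmm
    calc A * B * A.adjugate * B.adjugate * (B * A)
        = A * B * ((A.adjugate * B.adjugate) * (B * A)) := by simp only [mul_assoc]
      _ = A * B * ((B * A).adjugate * (B * A)) := by rw [Matrix.adjugate_mul_distrib]
      _ = A * B := by
        rw [adjugate_mul_of_det (by rw [Matrix.det_mul, hB, hA, one_mul]), mul_one]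
  generalize cmm A B = K at hK hKd hKBA
  -- UL decomposition of B w
  obtain ⟨V, T, hV, hV1, hT, hM⟩ := exists_ul n (B * w) htr
  have hVdet : V.det = 1 := by
    rw [det_ut hV]
    exact Finset.prod_eq_one (fun i _ => hV1 i)
  have hTdet : T.det ≠ 0 := by
    have h1 : (B * w).det = T.det := by rw [hM, Matrix.det_mul, hVdet, one_mul]
    rw [← h1, Matrix.det_mul, hB, one_mul]
    exact dw0
  have hTd : ∀ i, T i i ≠ 0 := by
    rw [det_lt hT] at hTdet
    exact fun i => (Finset.prod_ne_zero_iff.mp hTdet) i (Finset.mem_univ i)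
  have hTu : IsUnit T.det := isUnit_iff_ne_zero.mpr hTdet
  -- the matrix c = B A w
  obtain ⟨c, hcdef⟩ : ∃ c : Matrix (Fin n) (Fin n) ℂ, c = B * A * w := ⟨_, rfl⟩
  rw [← hcdef] at hc
  have hcdet : c.det ≠ 0 := by
    rw [hcdef, Matrix.det_mul, Matrix.det_mul, hB, hA, one_mul, one_mul]
    exact dw0
  have hcd : ∀ i, c i i ≠ 0 := by
    rw [det_ut hc] at hcdet
    exact fun i => (Finset.prod_ne_zero_iff.mp hcdet) i (Finset.mem_univ i)
  have hcw : c * w = B * A := by rw [hcdef, mul_assoc, ww0, mul_one]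
  -- diagonal normalization
  obtain ⟨D, hD⟩ : ∃ D : Matrix (Fin n) (Fin n) ℂ, D = Matrix.diagonal (fun i => c i i) :=
    ⟨_, rfl⟩
  obtain ⟨Di, hDi⟩ : ∃ Di : Matrix (Fin n) (Fin n) ℂ,
      Di = Matrix.diagonal (fun i => (c i i)⁻¹) := ⟨_, rfl⟩
  have hDDi : D * Di = 1 := by
    rw [hD, hDi, Matrix.diagonal_mul_diagonal]
    have h1 : (fun i => c i i * (c i i)⁻¹) = fun _ => (1 : ℂ) :=
      funext fun i => mul_inv_cancel₀ (hcd i)
    rw [h1, Matrix.diagonal_one]
  have hDiD : Di * D = 1 := by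
    rw [hD, hDi, Matrix.diagonal_mul_diagonal]
    have h1 : (fun i => (c i i)⁻¹ * c i i) = fun _ => (1 : ℂ) :=
      funext fun i => inv_mul_cancel₀ (hcd i)
    rw [h1, Matrix.diagonal_one]
  have hDu : ∀ i j, j < i → D i j = 0 := fun i j h => by
    rw [hD]; exact Matrix.diagonal_apply_ne _ (ne_of_gt h)
  have hDiu : ∀ i j, j < i → Di i j = 0 := fun i j h => by
    rw [hDi]; exact Matrix.diagonal_apply_ne _ (ne_of_gt h)
  have hDil : ∀ i j, i < j → Di i j = 0 := fun i j h => by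
    rw [hDi]; exact Matrix.diagonal_apply_ne _ (ne_of_lt h)
  have hDd : ∀ i, D i i = c i i := fun i => by rw [hD]; exact Matrix.diagonal_apply_eq _ i
  have hDid : ∀ i, Di i i = (c i i)⁻¹ := fun i => by
    rw [hDi]; exact Matrix.diagonal_apply_eq _ i
  have DDi_l : ∀ Y : Matrix (Fin n) (Fin n) ℂ, D * (Di * Y) = Y := fun Y => by
    rw [← mul_assoc, hDDi, one_mul]
  -- U and Lo
  obtain ⟨U, hU⟩ : ∃ U : Matrix (Fin n) (Fin n) ℂ, U = V * D := ⟨_, rfl⟩
  obtain ⟨Lo, hLo⟩ : ∃ Lo : Matrix (Fin n) (Fin n) ℂ, Lo = Di * T := ⟨_, rfl⟩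
  have hUu : ∀ i j, j < i → U i j = 0 := by rw [hU]; exact ut_mul hV hDu
  have hUd : ∀ i, U i i = c i i := fun i => by
    rw [hU, ut_mul_diag hV hDu, hV1, one_mul, hDd]
  have hLol : ∀ i j, i < j → Lo i j = 0 := by rw [hLo]; exact lt_mul hDil hT
  have hLod : ∀ i, Lo i i = (c i i)⁻¹ * T i i := fun i => by
    rw [hLo, lt_mul_diag hDil hT, hDid]
  have hULo : U * Lo = B * w := by
    rw [hM, hU, hLo]
    simp only [mul_assoc, DDi_l]
  have hBeq : B = U * Lo * w := by rw [hULo, mul_assoc, ww0, mul_one]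
  -- inverses of U and Lo
  obtain ⟨Ui, hUi⟩ : ∃ Ui : Matrix (Fin n) (Fin n) ℂ, Ui = Di * V.adjugate := ⟨_, rfl⟩
  have hUUi : U * Ui = 1 := by
    rw [hU, hUi]
    simp only [mul_assoc, DDi_l]
    exact mul_adjugate_of_det hVdet
  have UUi_l : ∀ Y : Matrix (Fin n) (Fin n) ℂ, U * (Ui * Y) = Y := fun Y => by
    rw [← mul_assoc, hUUi, one_mul]
  have hVau : ∀ i j, j < i → V.adjugate i j = 0 := ut_adjugate hV hVdet
  have hVad : ∀ i, V.adjugate i i = 1 := fun i => by
    have h := ut_adjugate_diag hV hVdet i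
    rwa [hV1, mul_one] at h
  have hUiu : ∀ i j, j < i → Ui i j = 0 := by rw [hUi]; exact ut_mul hDiu hVau
  have hUid : ∀ i, Ui i i = (c i i)⁻¹ := fun i => by
    rw [hUi, ut_mul_diag hDiu hVau, hDid, hVad, mul_one]
  obtain ⟨Loi, hLoi⟩ : ∃ Loi : Matrix (Fin n) (Fin n) ℂ, Loi = T⁻¹ * D := ⟨_, rfl⟩
  have hLoLoi : Lo * Loi = 1 := by
    rw [hLo, hLoi]
    calc Di * T * (T⁻¹ * D) = Di * ((T * T⁻¹) * D) := by simp only [mul_assoc]
      _ = 1 := by rw [Matrix.mul_nonsing_inv T hTu, one_mul, hDiD]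
  have LoLoi_l : ∀ Y : Matrix (Fin n) (Fin n) ℂ, Lo * (Loi * Y) = Y := fun Y => by
    rw [← mul_assoc, hLoLoi, one_mul]
  -- the lower unitriangular matrix li and its inverse l
  obtain ⟨X, hX⟩ : ∃ X : Matrix (Fin n) (Fin n) ℂ, X = Ui * c := ⟨_, rfl⟩
  have hXu : ∀ i j, j < i → X i j = 0 := by rw [hX]; exact ut_mul hUiu hc
  have hXd : ∀ i, X i i = 1 := fun i => by
    rw [hX, ut_mul_diag hUiu hc, hUid, inv_mul_cancel₀ (hcd i)]
  obtain ⟨li, hli⟩ : ∃ li : Matrix (Fin n) (Fin n) ℂ, li = w * X * w := ⟨_, rfl⟩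
  have hlil : ∀ i j, i < j → li i j = 0 := fun i j h => by
    rw [hli, hconj0]
    exact hXu _ _ (Fin.rev_lt_rev.mpr h)
  have hlid : ∀ i, li i i = 1 := fun i => by
    rw [hli, hconj0]
    exact hXd _
  have hlidet : li.det = 1 := by
    rw [det_lt hlil]
    exact Finset.prod_eq_one (fun i _ => hlid i)
  obtain ⟨l, hl⟩ : ∃ l : Matrix (Fin n) (Fin n) ℂ, l = li.adjugate := ⟨_, rfl⟩
  have hll : ∀ i j, i < j → l i j = 0 := by rw [hl]; exact lt_adjugate hlil hlidet
  have hld : ∀ i, l i i = 1 := fun i => by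
    have h := lt_adjugate_diag hlil hlidet i
    rw [hlid, mul_one] at h
    rw [hl]
    exact h
  have hlli : l * li = 1 := by rw [hl]; exact adjugate_mul_of_det hlidet
  have lli_l : ∀ Y : Matrix (Fin n) (Fin n) ℂ, l * (li * Y) = Y := fun Y => by
    rw [← mul_assoc, hlli, one_mul]
  have hldet : l.det = 1 := by
    rw [det_lt hll]
    exact Finset.prod_eq_one (fun i _ => hld i)
  have hladj : l.adjugate = li := by
    rw [adjugate_eq_inv hldet]
    exact Matrix.inv_eq_right_inv hlli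
  -- the formula for A
  have hBA : B * (w * Loi * w * li) = B * A := by
    rw [← hcw]
    have e1 : B * (w * Loi * w * li) = U * Lo * w * (w * Loi * w * (w * (Ui * c) * w)) := by
      rw [← hBeq, ← hX, ← hli]
    rw [e1]
    simp only [mul_assoc, ww_l, LoLoi_l, UUi_l]
  have hAeq : A = w * Loi * w * li := by
    calc A = (B.adjugate * B) * A := by rw [adjugate_mul_of_det hB, one_mul]
      _ = B.adjugate * (B * A) := by rw [mul_assoc]
      _ = B.adjugate * (B * (w * Loi * w * li)) := by rw [hBA]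
      _ = (B.adjugate * B) * (w * Loi * w * li) := (mul_assoc _ _ _).symm
      _ = w * Loi * w * li := by rw [adjugate_mul_of_det hB, one_mul]
  have hLoidet : Loi.det = 1 := by
    have h := congrArg Matrix.det hAeq
    rw [hA, Matrix.det_mul, Matrix.det_mul, Matrix.det_mul, hlidet, mul_one] at h
    calc Loi.det = (w.det * w.det) * Loi.det := by rw [dww0, one_mul]
      _ = w.det * Loi.det * w.det := by ring
      _ = 1 := h.symm
  have hLodet : Lo.det = 1 := by
    have h := congrArg Matrix.det hLoLoi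
    rw [Matrix.det_mul, hLoidet, mul_one, Matrix.det_one] at h
    exact h
  have hLoadj : Lo.adjugate = Loi := by
    rw [adjugate_eq_inv hLodet]
    exact Matrix.inv_eq_right_inv hLoLoi
  have hUdet : U.det = w.det := by
    have h := congrArg Matrix.det hBeq
    rw [hB, Matrix.det_mul, Matrix.det_mul, hLodet, mul_one] at h
    calc U.det = U.det * (w.det * w.det) := by rw [dww0, mul_one]
      _ = (U.det * w.det) * w.det := by ring
      _ = w.det := by rw [← h, one_mul]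
  -- the matrix b
  have hKc : K * c = w * Loi * w * li * (B * w) := by
    calc K * c = K * (B * A) * w := by rw [hcdef]; simp only [mul_assoc]
      _ = A * B * w := by rw [hKBA]
      _ = w * Loi * w * li * (B * w) := by rw [← hAeq, mul_assoc]
  obtain ⟨b, hb⟩ : ∃ b : Matrix (Fin n) (Fin n) ℂ, b = w * Lo * w * K * c := ⟨_, rfl⟩
  have hbeq : b = li * (B * w) := by
    have e1 : b = w * Lo * w * (w * Loi * w * li * (B * w)) := by
      rw [hb, ← hKc]
      simp only [mul_assoc]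
    rw [e1]
    simp only [mul_assoc, ww_l, LoLoi_l]
  have hP : ∀ i j, j < i → (w * Lo * w) i j = 0 := fun i j h => by
    rw [hconj0]
    exact hLol _ _ (Fin.rev_lt_rev.mpr h)
  have hPK : ∀ i j, j < i → (w * Lo * w * K) i j = 0 := ut_mul hP hK
  refine ⟨U, Lo, l, b, hUu, ?_, hLol, ?_, hll, hld, ?_, ?_, ?_, hULo, hLodet, hUdet, ?_, hBeq⟩
  · intro i
    rw [hUd]
    exact hcd i
  · intro i
    rw [hLod]
    exact mul_ne_zero (inv_ne_zero (hcd i)) (hTd i)
  · rw [hb]
    exact ut_mul hPK hc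
  · intro i
    rw [hb, ut_mul_diag hPK hc, ut_mul_diag hP hK, hconj0, hKd, hUd]
    ring
  · rw [hbeq, hULo]
    exact (lli_l _).symm
  · rw [hLoadj, hladj]
    exact hAeq

end Vale.Agent.Lib.P002.H40
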